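import Vale.Agent.P181.DG.Defs

set_option autoImplicit false

/-!
# P181, HO: the last hole near `w = 2 a`, three long rows

`w = 2 a + O(√a polylog)`, the rows two and three within `√a polylog` of `a`, the rest small. The
marks of the assemblies are replaced by vacuum blocks: translation invariant highest weight
polynomials of weight `(ω, ω)` in few columns (`D²`, `D⁴` in three columns, `D` = the area of the
triangle, and `P₁⁴ + P₂⁴ + P₃⁴` in four columns).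
-/

open MvPolynomial

namespace Vale.Agent.P181.HO

open Vale.Agent.P181.T4 (HW ex low)
open Vale.Agent.P181.H280 (plethMult)
open Vale.Agent.P181.H463 (gt)
open Vale.Agent.P181.SZ (tl)
open Vale.Agent.P181.PL (dn)
open Vale.Agent.P181.DG

/-- The weight `(ω, ω, 0, 0, ..)`. -/
def two (m ω : ℕ) : Fin m → ℕ := fun i => if (i : ℕ) < 2 then ω else 0

/-- A vacuum block: `s` small columns, weight `(ω, ω)`, with a monomial in which all the `s`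
columns occur. -/
def Vac (m S s ω : ℕ) : Prop :=
  ∃ G ∈ PKT m S (Fin 0) (fun _ => 0) s (two m ω), ∃ v : Fin m × (Fin 0 ⊕ Fin s) →₀ ℕ,
    coeff v G ≠ 0 ∧ ∀ j : Fin s, ∑ i, v (i, Sum.inr j) ≠ 0

/-- **(HO1)** exterior multiplication by a vacuum block, graded by the number of columns which
occur (in letters: multiplication of polynomials, a domain). -/
def VacStep : Prop := ∀ (m S s ω t : ℕ) (nu : Fin m → ℕ), 1 ≤ S → Vac m S s ω →
  NT m S nu 0 (t + 1) + NT m S (fun i => nu i + two m ω i) 0 (t + s) ≤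
    NT m S nu 0 t + NT m S (fun i => nu i + two m ω i) 0 (t + 1 + s)

/-- **(HO2)** the three vacuum blocks. -/
def VacBase : Prop := ∀ m S : ℕ, 2 ≤ m → 5 ≤ S → Vac m S 3 2 ∧ Vac m S 3 4 ∧ Vac m S 4 4

/-- **(HO3)** the mark. -/
def MarkH : Prop := ∀ (m S a a0 b0 κ : ℕ) (lam nu : Fin (m + 1) → ℕ), 2 ≤ m → 5 ≤ S → a0 < S →
  a + 4 ≤ 3 * κ → 3 * κ ≤ a + 6 → 2 * b0 + 20 ≤ a → 0 < ∑ i, tl nu i →
  (∀ i, tl lam i = tl nu i + two m (2 * κ) i) →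
  plethMult b0 a0 (m + 1) nu ≤ b0 * gT m S (tl lam) 0 (a + 1)

/-- **(HO4)** the assembly: `DX.AsmX` with the good state `(0, a + 1)` as the only mark. -/
def AsmG : Prop := ∀ (a b m R X Z K w : ℕ) (lam : Fin (m + 1) → ℕ), Antitone lam →
  ∑ i, lam i = a * b → ((∀ i, 0 < lam i) ∨ m + 1 ≤ Z * X ^ 2) → 1 ≤ R → R + 1 ≤ m →
  w = dn lam 1 → Z ^ 2 ≤ w → w < (Z + 1) ^ 2 →
  1 ≤ K → 16 * K + 16 ≤ X → X ≤ Z → 4 * w ≤ X ^ K → 100 * K * ((Z + 1) * X) ≤ a →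
  a < b → (Z + 1) * X ^ 3 ≤ a → Z * X ^ 2 + 2 ≤ a → a + 3 ≤ w →
  (m + 1 ≤ Z * X ^ 2 → 2 * ((w + 1) ^ (R * (Z * X ^ 2)) *
    gt (m + 1 - (R + 1)) (Z * X ^ 2) (low (R + 1) lam)) ≤
      gT m ((Z + 1) * X) (tl lam) 0 (a + 1)) →
  plethMult a b (m + 1) lam ≤ plethMult b a (m + 1) lam

/-- The hypotheses of the hole. -/
def HyH (a b n X : ℕ) (lam : Fin n → ℕ) : Prop :=
  Antitone lam ∧ ∑ i, lam i = a * b ∧ (∀ i, 0 < lam i) ∧ a < b ∧ 2 * a ≤ dn lam 1 ∧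
    (dn lam 1 - a - ex lam 2) ^ 2 ≤ X * dn lam 1 ∧ X ^ 20000 ≤ a ∧
    10 ^ 12 * (1 + Real.log a) ^ 7 ≤ X ∧ dn lam 1 * X ^ 13000 ≤ a ^ 2

/-- **(HO5)** the hole, from `AsmG`, `MarkH` and `SZN4.low_bound` with `R = 3`. -/
def HoleX : Prop := ∀ (a b n X : ℕ) (lam : Fin n → ℕ), HyH a b n X lam →
  plethMult a b n lam ≤ plethMult b a n lam

/-- **(HO6)** the hole for every polylog: EVERY `a ≤ b`, no condition on `b`. -/
def DiagH : Prop := ∀ (C : ℝ) (c : ℕ), ∃ (C' : ℝ) (c' : ℕ), 1 ≤ C' ∧ ∀ a b : ℕ, a ≤ b →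
  ∀ (n : ℕ) (lam : Fin n → ℕ), 2 * a ≤ dn lam 1 →
  ((dn lam 1 : ℝ) - a - ex lam 2) ^ 2 ≤ C * (1 + Real.log a) ^ c * (dn lam 1 : ℝ) →
  C' * (1 + Real.log a) ^ c' * (dn lam 1 : ℝ) ≤ (a : ℝ) ^ 2 →
  plethMult a b n lam ≤ plethMult b a n lam

end Vale.Agent.P181.HO
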