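import Vale.Agent.P181.HO.Step

set_option autoImplicit false

/-!
# P181, HO (HO1): closed
-/

namespace Vale.Agent.P181.HO

/-- **(HO1)** -/
theorem vacStep1 : VacStep :=
  vacStep Vale.Agent.P181.DGx.H831.kerStmt Vale.Agent.P181.DGx.H831.transT

end Vale.Agent.P181.HO
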