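import Vale.Agent.P181.HO.Defs
import Vale.Agent.P181.DGx.H831.Ker
import Vale.Agent.P181.SZR5.Basic

set_option autoImplicit false

/-!
# P181, HO (HO1): a symmetric polynomial in columns as a polynomial in letters
-/

open MvPolynomial

namespace Vale.Agent.P181.HO

open Vale.Agent.P181.T4 (HW mem_HW)
open Vale.Agent.P181.DG
open Vale.Agent.P181.DGx.H831 (mem_PKT Sy pm pm_inr coeff_pm)
open Vale.Agent.P181.SZT0 (rc rc_inj inj_pr coeff_rc rc_mem_HW)

section hat

variable {m t : ℕ}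

/-- The exponents. -/
abbrev Ex (m t : ℕ) : Type := Fin m × (Fin 0 ⊕ Fin t) →₀ ℕ

/-- A column of an exponent. -/
def cl (v : Ex m t) (j : Fin t) : Fin m → ℕ := fun i => v (i, Sum.inr j)

open scoped Classical in
/-- The letter of a column, zero if the column is empty. -/
noncomputable def lt (c : Fin m → ℕ) : MvPolynomial (Fin m → ℕ) ℂ := if c = 0 then 0 else X c

/-- The product of the letters of an exponent. -/
noncomputable def hm (v : Ex m t) : MvPolynomial (Fin m → ℕ) ℂ := ∏ j, lt (cl v j)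

/-- The polynomial in letters. -/
noncomputable def hat (m t : ℕ) :
    MvPolynomial (Fin m × (Fin 0 ⊕ Fin t)) ℂ →ₗ[ℂ] MvPolynomial (Fin m → ℕ) ℂ :=
  (basisMonomials (Fin m × (Fin 0 ⊕ Fin t)) ℂ).constr ℂ hm

lemma hat_monomial (v : Ex m t) (c : ℂ) : hat m t (monomial v c) = c • hm v := by
  have h1 : (monomial v c : MvPolynomial (Fin m × (Fin 0 ⊕ Fin t)) ℂ)
      = c • basisMonomials (Fin m × (Fin 0 ⊕ Fin t)) ℂ v := by
    rw [coe_basisMonomials, smul_monomial, smul_eq_mul, mul_one]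
  rw [h1, map_smul, hat, Module.Basis.constr_basis]

lemma hat_eq (f : MvPolynomial (Fin m × (Fin 0 ⊕ Fin t)) ℂ) :
    hat m t f = ∑ v ∈ f.support, coeff v f • hm v := by
  conv_lhs => rw [f.as_sum]
  rw [map_sum]
  exact Finset.sum_congr rfl fun v _ => hat_monomial v _

lemma hm_pm (s : Equiv.Perm (Fin t)) (v : Ex m t) : hm (pm s v) = hm v := by
  rw [hm, ← Equiv.prod_comp s]
  apply Finset.prod_congr rfl
  intro j _
  congr 1
  funext i
  exact pm_inr s v i j

lemma hat_perm (s : Equiv.Perm (Fin t)) (f : MvPolynomial (Fin m × (Fin 0 ⊕ Fin t)) ℂ) :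
    hat m t (rc m (Sum.map id s : Fin 0 ⊕ Fin t → Fin 0 ⊕ Fin t) f) = hat m t f := by
  induction f using MvPolynomial.induction_on' with
  | monomial u a =>
    have h1 : rc m (Sum.map id s : Fin 0 ⊕ Fin t → Fin 0 ⊕ Fin t) (monomial u a)
        = monomial (pm s u) a := rename_monomial _ _ _
    rw [h1, hat_monomial, hat_monomial, hm_pm]
  | add p q hp hq => rw [map_add, map_add, map_add, hp, hq]

/-- The columns of the first factor. -/
def in1 {t1 t2 : ℕ} (e : Fin t1 ⊕ Fin t2 ≃ Fin t) : Fin 0 ⊕ Fin t1 → Fin 0 ⊕ Fin t :=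
  Sum.map id fun j => e (Sum.inl j)

/-- The columns of the second factor. -/
def in2 {t1 t2 : ℕ} (e : Fin t1 ⊕ Fin t2 ≃ Fin t) : Fin 0 ⊕ Fin t2 → Fin 0 ⊕ Fin t :=
  Sum.map id fun j => e (Sum.inr j)

lemma in1_inj {t1 t2 : ℕ} (e : Fin t1 ⊕ Fin t2 ≃ Fin t) : Function.Injective (in1 e) :=
  Sum.map_injective.2 ⟨Function.injective_id, e.injective.comp Sum.inl_injective⟩

lemma in2_inj {t1 t2 : ℕ} (e : Fin t1 ⊕ Fin t2 ≃ Fin t) : Function.Injective (in2 e) :=
  Sum.map_injective.2 ⟨Function.injective_id, e.injective.comp Sum.inr_injective⟩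

lemma in1_not {t1 t2 : ℕ} (e : Fin t1 ⊕ Fin t2 ≃ Fin t) (y : Fin t2) :
    (Sum.inr (e (Sum.inr y)) : Fin 0 ⊕ Fin t) ∉ Set.range (in1 e) := by
  rintro ⟨x, hx⟩
  rcases x with x | x
  · exact x.elim0
  · simp [in1] at hx

lemma in2_not {t1 t2 : ℕ} (e : Fin t1 ⊕ Fin t2 ≃ Fin t) (x : Fin t1) :
    (Sum.inr (e (Sum.inl x)) : Fin 0 ⊕ Fin t) ∉ Set.range (in2 e) := by
  rintro ⟨y, hy⟩
  rcases y with y | y
  · exact y.elim0
  · simp [in2] at hy

lemma map_not {τ : Type} {ι : τ → Fin 0 ⊕ Fin t} {j : Fin 0 ⊕ Fin t} (hj : j ∉ Set.range ι)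
    (u : Fin m × τ →₀ ℕ) (i : Fin m) :
    Finsupp.mapDomain (fun p : Fin m × τ => (p.1, ι p.2)) u (i, j) = 0 := by
  apply Finsupp.mapDomain_of_notMem_range
  rintro ⟨⟨a, b⟩, hab⟩
  exact hj ⟨b, congrArg Prod.snd hab⟩

lemma hat_mul {t1 t2 : ℕ} (e : Fin t1 ⊕ Fin t2 ≃ Fin t)
    (f : MvPolynomial (Fin m × (Fin 0 ⊕ Fin t1)) ℂ)
    (g : MvPolynomial (Fin m × (Fin 0 ⊕ Fin t2)) ℂ) :
    hat m t (rc m (in1 e) f * rc m (in2 e) g) = hat m t1 f * hat m t2 g := by
  induction f using MvPolynomial.induction_on' with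
  | add p q hp hq => rw [map_add, add_mul, map_add, hp, hq, map_add, add_mul]
  | monomial u a =>
    induction g using MvPolynomial.induction_on' with
    | add p q hp hq => rw [map_add, mul_add, map_add, hp, hq, map_add, mul_add]
    | monomial w b =>
      have h1 : rc m (in1 e) (monomial u a)
          = monomial (Finsupp.mapDomain (fun p : Fin m × (Fin 0 ⊕ Fin t1) => (p.1, in1 e p.2)) u)
            a := rename_monomial _ _ _
      have h2 : rc m (in2 e) (monomial w b)
          = monomial (Finsupp.mapDomain (fun p : Fin m × (Fin 0 ⊕ Fin t2) => (p.1, in2 e p.2)) w)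
            b := rename_monomial _ _ _
      rw [h1, h2, monomial_mul, hat_monomial, hat_monomial, hat_monomial, smul_mul_smul_comm]
      congr 1
      rw [hm, ← Equiv.prod_comp e, Fintype.prod_sum_type, hm, hm]
      congr 1
      · apply Finset.prod_congr rfl
        intro x _
        congr 1
        funext i
        change Finsupp.mapDomain _ u (i, Sum.inr (e (Sum.inl x))) +
          Finsupp.mapDomain _ w (i, Sum.inr (e (Sum.inl x))) = u (i, Sum.inr x)
        rw [map_not (in2_not e x), add_zero]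
        exact Finsupp.mapDomain_apply (inj_pr (in1_inj e)) u (i, Sum.inr x)
      · apply Finset.prod_congr rfl
        intro y _
        congr 1
        funext i
        change Finsupp.mapDomain _ u (i, Sum.inr (e (Sum.inr y))) +
          Finsupp.mapDomain _ w (i, Sum.inr (e (Sum.inr y))) = w (i, Sum.inr y)
        rw [map_not (in1_not e y), zero_add]
        exact Finsupp.mapDomain_apply (inj_pr (in2_inj e)) w (i, Sum.inr y)

lemma lt_of_ne {c : Fin m → ℕ} (h : c ≠ 0) : lt c = X c := if_neg h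

lemma lt_zero {c : Fin m → ℕ} (h : c = 0) : lt c = 0 := if_pos h

/-- The monomial in letters. -/
noncomputable def lm (v : Ex m t) : (Fin m → ℕ) →₀ ℕ := ∑ j, Finsupp.single (cl v j) 1

lemma hm_of_ne {v : Ex m t} (h : ∀ j, cl v j ≠ 0) : hm v = monomial (lm v) 1 := by
  rw [hm, lm, Finset.prod_congr rfl fun j _ => lt_of_ne (h j), monomial_sum_one]
  rfl

lemma hm_zero {v : Ex m t} {j : Fin t} (h : cl v j = 0) : hm v = 0 := by
  rw [hm]
  exact Finset.prod_eq_zero (Finset.mem_univ j) (lt_zero h)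

lemma lm_apply (v : Ex m t) (c : Fin m → ℕ) :
    lm v c = open scoped Classical in (Finset.univ.filter fun j => cl v j = c).card := by
  classical
  rw [lm, Finsupp.finsetSum_apply, Finset.card_filter]
  apply Finset.sum_congr rfl
  intro j _
  rw [Finsupp.single_apply]

/-- The same letters: the exponents differ by a permutation. -/
lemma exists_pm {u v : Ex m t} (h : lm u = lm v) : ∃ s : Equiv.Perm (Fin t), u = pm s v := by
  classical
  have hc : ∀ c, Nonempty ({j // cl v j = c} ≃ {j // cl u j = c}) := by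
    intro c
    refine ⟨Fintype.equivOfCardEq ?_⟩
    rw [Fintype.card_subtype, Fintype.card_subtype]
    have h1 := lm_apply u c
    have h2 := lm_apply v c
    rw [h, h2] at h1
    convert h1
  let φ := fun c => Classical.choice (hc c)
  let s : Fin t ≃ Fin t := (Equiv.sigmaFiberEquiv (cl v)).symm.trans
    ((Equiv.sigmaCongrRight φ).trans (Equiv.sigmaFiberEquiv (cl u)))
  have hs : ∀ j, cl u (s j) = cl v j := fun j => (φ (cl v j) ⟨j, rfl⟩).2
  refine ⟨s, ?_⟩
  ext ⟨i, l⟩
  rcases l with l | l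
  · exact l.elim0
  · obtain ⟨j, rfl⟩ := s.surjective l
    rw [pm_inr]
    exact congrFun (hs j) i

lemma hat_ker {f : MvPolynomial (Fin m × (Fin 0 ⊕ Fin t)) ℂ} (hf : Sy m (Fin 0) t f)
    (h : hat m t f = 0) {v : Ex m t} (hv : ∀ j, cl v j ≠ 0) : coeff v f = 0 := by
  classical
  by_contra hne
  have h1 : coeff (lm v) (hat m t f) = 0 := by rw [h, coeff_zero]
  rw [hat_eq, coeff_sum] at h1
  have h2 : ∀ u ∈ f.support, coeff (lm v) (coeff u f • hm u)
      = if u ∈ (f.support.filter fun u => lm u = lm v ∧ ∀ j, cl u j ≠ 0) then coeff v f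
        else 0 := by
    intro u hu
    rw [coeff_smul, smul_eq_mul]
    by_cases h3 : ∀ j, cl u j ≠ 0
    · rw [hm_of_ne h3, coeff_monomial]
      by_cases h4 : lm u = lm v
      · rw [if_pos h4, if_pos (Finset.mem_filter.2 ⟨hu, h4, h3⟩), mul_one]
        obtain ⟨s, rfl⟩ := exists_pm h4
        exact coeff_pm s hf v
      · rw [if_neg h4, if_neg (fun h5 => h4 (Finset.mem_filter.1 h5).2.1), mul_zero]
    · rw [if_neg (fun h5 => h3 (Finset.mem_filter.1 h5).2.2)]
      push Not at h3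
      obtain ⟨j, hj⟩ := h3
      rw [hm_zero hj, coeff_zero, mul_zero]
  rw [Finset.sum_congr rfl h2, Finset.sum_ite_mem, Finset.sum_const, nsmul_eq_mul] at h1
  rcases mul_eq_zero.1 h1 with h3 | h3
  · rw [Nat.cast_eq_zero, Finset.card_eq_zero] at h3
    have h4 : v ∈ f.support ∩ (f.support.filter fun u => lm u = lm v ∧ ∀ j, cl u j ≠ 0) :=
      Finset.mem_inter.2 ⟨mem_support_iff.2 hne,
        Finset.mem_filter.2 ⟨mem_support_iff.2 hne, rfl, hv⟩⟩
    rw [h3] at h4
    exact absurd h4 (Finset.notMem_empty _)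
  · exact hne h3

end hat

end Vale.Agent.P181.HO
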