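import Vale.Agent.P181.HO.Hat

set_option autoImplicit false

/-!
# P181, HO (HO1): exterior multiplication by a vacuum block
-/

open MvPolynomial

namespace Vale.Agent.P181.HO

open Vale.Agent.P181.T4 (HW mem_HW)
open Vale.Agent.P181.DG
open Vale.Agent.P181.DG.H514 (KerT KerStmt)
open Vale.Agent.P181.DGx.H831 (mem_PKT Sy pm pm_inr coeff_pm pm_inj rc_rc pderiv_rc)
open Vale.Agent.P181.SZT0 (rc rc_inj inj_pr coeff_rc rc_mem_HW)
open Vale.Agent.P181.SZR5 (HW_mul)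

section step

variable {m S t t1 t2 : ℕ}

/-- A permutation of the small columns. -/
def sm (s : Equiv.Perm (Fin t)) : Fin 0 ⊕ Fin t → Fin 0 ⊕ Fin t := Sum.map id s

lemma sm_inj (s : Equiv.Perm (Fin t)) : Function.Injective (sm s) :=
  Sum.map_injective.2 ⟨Function.injective_id, s.injective⟩

/-- The symmetrised exterior product. -/
noncomputable def ext (m : ℕ) (e : Fin t1 ⊕ Fin t2 ≃ Fin t)
    (G : MvPolynomial (Fin m × (Fin 0 ⊕ Fin t2)) ℂ) :
    MvPolynomial (Fin m × (Fin 0 ⊕ Fin t1)) ℂ →ₗ[ℂ] MvPolynomial (Fin m × (Fin 0 ⊕ Fin t)) ℂ :=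
  ∑ s : Equiv.Perm (Fin t), (rc m (sm s)).toLinearMap ∘ₗ
    (LinearMap.mulRight ℂ (rc m (in2 e) G)) ∘ₗ (rc m (in1 e)).toLinearMap

lemma ext_apply (e : Fin t1 ⊕ Fin t2 ≃ Fin t) (G : MvPolynomial (Fin m × (Fin 0 ⊕ Fin t2)) ℂ)
    (F : MvPolynomial (Fin m × (Fin 0 ⊕ Fin t1)) ℂ) :
    ext m e G F = ∑ s : Equiv.Perm (Fin t), rc m (sm s) (rc m (in1 e) F * rc m (in2 e) G) := by
  rw [ext, LinearMap.sum_apply]
  rfl

lemma hat_ext (e : Fin t1 ⊕ Fin t2 ≃ Fin t) (G : MvPolynomial (Fin m × (Fin 0 ⊕ Fin t2)) ℂ)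
    (F : MvPolynomial (Fin m × (Fin 0 ⊕ Fin t1)) ℂ) :
    hat m t (ext m e G F) = (Fintype.card (Equiv.Perm (Fin t)) : ℂ) •
      (hat m t1 F * hat m t2 G) := by
  rw [ext_apply, map_sum]
  have h1 : ∀ s : Equiv.Perm (Fin t),
      hat m t (rc m (sm s) (rc m (in1 e) F * rc m (in2 e) G)) = hat m t1 F * hat m t2 G := by
    intro s
    rw [sm, hat_perm, hat_mul]
  rw [Finset.sum_congr rfl fun s _ => h1 s, Finset.sum_const, Finset.card_univ,
    ← Nat.cast_smul_eq_nsmul ℂ]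

lemma pderiv_rc_zero {τ : Type} {ι : τ → Fin 0 ⊕ Fin t} {j : Fin 0 ⊕ Fin t}
    (hj : j ∉ Set.range ι) (i : Fin m) (f : MvPolynomial (Fin m × τ) ℂ) :
    pderiv (i, j) (rc m ι f) = 0 := by
  classical
  apply pderiv_eq_zero_of_notMem_vars
  intro h7
  have h8 := vars_rename (fun p : Fin m × τ => (p.1, ι p.2)) f h7
  rw [Finset.mem_image] at h8
  obtain ⟨⟨a, b⟩, _, hab⟩ := h8
  exact hj ⟨b, congrArg Prod.snd hab⟩

lemma sum_pderiv_in1 (e : Fin t1 ⊕ Fin t2 ≃ Fin t) (i : Fin m)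
    (F : MvPolynomial (Fin m × (Fin 0 ⊕ Fin t1)) ℂ) :
    ∑ j : Fin t, pderiv (i, (Sum.inr j : Fin 0 ⊕ Fin t)) (rc m (in1 e) F)
      = rc m (in1 e) (∑ x : Fin t1, pderiv (i, (Sum.inr x : Fin 0 ⊕ Fin t1)) F) := by
  rw [← Equiv.sum_comp e, Fintype.sum_sum_type]
  have h1 : ∀ y : Fin t2, pderiv (i, (Sum.inr (e (Sum.inr y)) : Fin 0 ⊕ Fin t))
      (rc m (in1 e) F) = 0 := fun y => pderiv_rc_zero (in1_not e y) i F
  have h2 : ∀ x : Fin t1, pderiv (i, (Sum.inr (e (Sum.inl x)) : Fin 0 ⊕ Fin t))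
      (rc m (in1 e) F) = rc m (in1 e) (pderiv (i, (Sum.inr x : Fin 0 ⊕ Fin t1)) F) :=
    fun x => pderiv_rc (in1_inj e) i (Sum.inr x) F
  rw [Finset.sum_congr rfl fun y _ => h1 y, Finset.sum_const_zero, add_zero,
    Finset.sum_congr rfl fun x _ => h2 x, map_sum]

lemma sum_pderiv_in2 (e : Fin t1 ⊕ Fin t2 ≃ Fin t) (i : Fin m)
    (F : MvPolynomial (Fin m × (Fin 0 ⊕ Fin t2)) ℂ) :
    ∑ j : Fin t, pderiv (i, (Sum.inr j : Fin 0 ⊕ Fin t)) (rc m (in2 e) F)
      = rc m (in2 e) (∑ x : Fin t2, pderiv (i, (Sum.inr x : Fin 0 ⊕ Fin t2)) F) := by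
  rw [← Equiv.sum_comp e, Fintype.sum_sum_type]
  have h1 : ∀ y : Fin t1, pderiv (i, (Sum.inr (e (Sum.inl y)) : Fin 0 ⊕ Fin t))
      (rc m (in2 e) F) = 0 := fun y => pderiv_rc_zero (in2_not e y) i F
  have h2 : ∀ x : Fin t2, pderiv (i, (Sum.inr (e (Sum.inr x)) : Fin 0 ⊕ Fin t))
      (rc m (in2 e) F) = rc m (in2 e) (pderiv (i, (Sum.inr x : Fin 0 ⊕ Fin t2)) F) :=
    fun x => pderiv_rc (in2_inj e) i (Sum.inr x) F
  rw [Finset.sum_congr rfl fun y _ => h1 y, Finset.sum_const_zero, zero_add,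
    Finset.sum_congr rfl fun x _ => h2 x, map_sum]

lemma sum_pderiv_sm (s : Equiv.Perm (Fin t)) (i : Fin m)
    (H : MvPolynomial (Fin m × (Fin 0 ⊕ Fin t)) ℂ) :
    ∑ j : Fin t, pderiv (i, (Sum.inr j : Fin 0 ⊕ Fin t)) (rc m (sm s) H)
      = rc m (sm s) (∑ j : Fin t, pderiv (i, (Sum.inr j : Fin 0 ⊕ Fin t)) H) := by
  rw [← Equiv.sum_comp s, map_sum]
  exact Finset.sum_congr rfl fun x _ => pderiv_rc (sm_inj s) i (Sum.inr x) H

/-- The exterior product in the columns, before symmetrisation: the degrees of the columns. -/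
lemma col_lt (e : Fin t1 ⊕ Fin t2 ≃ Fin t) {F : MvPolynomial (Fin m × (Fin 0 ⊕ Fin t1)) ℂ}
    {G : MvPolynomial (Fin m × (Fin 0 ⊕ Fin t2)) ℂ}
    (hF : ∀ v, coeff v F ≠ 0 → ∀ j : Fin t1, ∑ i, v (i, Sum.inr j) < S)
    (hG : ∀ v, coeff v G ≠ 0 → ∀ j : Fin t2, ∑ i, v (i, Sum.inr j) < S)
    {v : Ex m t} (hv : coeff v (rc m (in1 e) F * rc m (in2 e) G) ≠ 0) (j : Fin t) :
    ∑ i, v (i, Sum.inr j) < S := by
  classical
  rw [coeff_mul] at hv
  obtain ⟨⟨u, w⟩, huw, hne⟩ := Finset.exists_ne_zero_of_sum_ne_zero hv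
  rw [Finset.HasAntidiagonal.mem_antidiagonal] at huw
  obtain ⟨u', hu', h1, h2⟩ := coeff_rc (in1_inj e) (left_ne_zero_of_mul hne)
  obtain ⟨w', hw', h3, h4⟩ := coeff_rc (in2_inj e) (right_ne_zero_of_mul hne)
  obtain ⟨x, rfl⟩ := e.surjective j
  rcases x with x | y
  · have h5 : ∀ i, v (i, Sum.inr (e (Sum.inl x))) = u' (i, Sum.inr x) := by
      intro i
      rw [← huw, Finsupp.add_apply, h4 i _ (in2_not e x), add_zero]
      exact h1 i (Sum.inr x)
    rw [Finset.sum_congr rfl fun i _ => h5 i]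
    exact hF u' hu' x
  · have h5 : ∀ i, v (i, Sum.inr (e (Sum.inr y))) = w' (i, Sum.inr y) := by
      intro i
      rw [← huw, Finsupp.add_apply, h2 i _ (in1_not e y), zero_add]
      exact h3 i (Sum.inr y)
    rw [Finset.sum_congr rfl fun i _ => h5 i]
    exact hG w' hw' y

lemma ext_mem (e : Fin t1 ⊕ Fin t2 ≃ Fin t) {nu mu : Fin m → ℕ}
    {F : MvPolynomial (Fin m × (Fin 0 ⊕ Fin t1)) ℂ}
    {G : MvPolynomial (Fin m × (Fin 0 ⊕ Fin t2)) ℂ}
    (hF : F ∈ PKT m S (Fin 0) (fun _ => 0) t1 nu) (hG : G ∈ PKT m S (Fin 0) (fun _ => 0) t2 mu) :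
    ext m e G F ∈ PKT m S (Fin 0) (fun _ => 0) t (fun i => nu i + mu i) := by
  obtain ⟨hF0, hF1, hF2, hF3⟩ := mem_PKT.1 hF
  obtain ⟨hG0, hG1, hG2, hG3⟩ := mem_PKT.1 hG
  refine mem_PKT.2 ⟨?_, ?_, ?_, ?_⟩
  · rw [ext_apply]
    refine Submodule.sum_mem _ fun s _ => (rc_mem_HW (sm_inj s)).2 ?_
    exact HW_mul ((rc_mem_HW (in1_inj e)).2 hF0) ((rc_mem_HW (in2_inj e)).2 hG0)
  · intro v hv
    refine ⟨fun j => j.elim0, fun j => ?_⟩
    rw [ext_apply, coeff_sum] at hv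
    obtain ⟨s, _, hs⟩ := Finset.exists_ne_zero_of_sum_ne_zero hv
    obtain ⟨u, hu, h1, _⟩ := coeff_rc (sm_inj s) hs
    obtain ⟨x, rfl⟩ := s.surjective j
    have h2 : ∑ i, v (i, Sum.inr (s x)) = ∑ i, u (i, Sum.inr x) :=
      Finset.sum_congr rfl fun i _ => h1 i (Sum.inr x)
    rw [h2]
    exact col_lt e (fun v hv => (hF1 v hv).2) (fun v hv => (hG1 v hv).2) hu x
  · intro e' s _
    have h1 : (fun p : Fin m × (Fin 0 ⊕ Fin t) => (p.1, Sum.map e' s p.2))
        = fun p : Fin m × (Fin 0 ⊕ Fin t) => (p.1, sm s p.2) := by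
      funext p
      obtain ⟨i, l⟩ := p
      rcases l with l | l
      · exact l.elim0
      · rfl
    rw [h1, ext_apply]
    change rc m (sm s) _ = _
    rw [map_sum]
    have h2 : ∀ s' : Equiv.Perm (Fin t),
        rc m (sm s) (rc m (sm s') (rc m (in1 e) F * rc m (in2 e) G))
          = rc m (sm (s * s')) (rc m (in1 e) F * rc m (in2 e) G) := by
      intro s'
      rw [rc_rc]
      congr 2
      funext l
      rcases l with l | l
      · exact l.elim0
      · rfl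
    rw [Finset.sum_congr rfl fun s' _ => h2 s']
    exact Equiv.sum_comp (Equiv.mulLeft s)
      fun s' => rc m (sm s') (rc m (in1 e) F * rc m (in2 e) G)
  · intro i
    have h1 : ∀ j : Fin t, pderiv (i, (Sum.inr j : Fin 0 ⊕ Fin t)) (ext m e G F)
        = ∑ s : Equiv.Perm (Fin t), pderiv (i, (Sum.inr j : Fin 0 ⊕ Fin t))
          (rc m (sm s) (rc m (in1 e) F * rc m (in2 e) G)) := by
      intro j
      rw [ext_apply, map_sum]
    rw [Finset.sum_congr rfl fun j _ => h1 j, Finset.sum_comm]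
    apply Finset.sum_eq_zero
    intro s _
    rw [sum_pderiv_sm]
    have h2 : ∑ j : Fin t, pderiv (i, (Sum.inr j : Fin 0 ⊕ Fin t))
        (rc m (in1 e) F * rc m (in2 e) G) = 0 := by
      have h3 : ∀ j : Fin t, pderiv (i, (Sum.inr j : Fin 0 ⊕ Fin t))
          (rc m (in1 e) F * rc m (in2 e) G)
          = pderiv (i, (Sum.inr j : Fin 0 ⊕ Fin t)) (rc m (in1 e) F) * rc m (in2 e) G +
            rc m (in1 e) F * pderiv (i, (Sum.inr j : Fin 0 ⊕ Fin t)) (rc m (in2 e) G) :=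
        fun j => pderiv_mul
      rw [Finset.sum_congr rfl fun j _ => h3 j, Finset.sum_add_distrib, ← Finset.sum_mul,
        ← Finset.mul_sum, sum_pderiv_in1, sum_pderiv_in2, hF3 i, hG3 i, map_zero, map_zero,
        zero_mul, mul_zero, add_zero]
    rw [h2, map_zero]

lemma sy_of_mem {nu : Fin m → ℕ} {F : MvPolynomial (Fin m × (Fin 0 ⊕ Fin t)) ℂ}
    (hF : F ∈ PKT m S (Fin 0) (fun _ => 0) t nu) : Sy m (Fin 0) t F := by
  intro s
  exact (mem_PKT.1 hF).2.2.1 1 s fun _ => rfl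

lemma cl_ne {v : Ex m t} {j : Fin t} : cl v j ≠ 0 ↔ ∑ i, v (i, Sum.inr j) ≠ 0 := by
  rw [not_iff_not, Finset.sum_eq_zero_iff]
  constructor
  · intro h i _
    exact congrFun h i
  · intro h
    funext i
    exact h i (Finset.mem_univ i)

/-- The number of columns which occur: rank of `hat`. -/
lemma rank_le (hK : KerStmt) (hS : 1 ≤ S) (nu : Fin m → ℕ) :
    Module.finrank ℂ (PKT m S (Fin 0) (fun _ => 0) (t + 1) nu) ≤
      Module.finrank ℂ ((PKT m S (Fin 0) (fun _ => 0) (t + 1) nu).map (hat m (t + 1))) +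
        Module.finrank ℂ (PKT m S (Fin 0) (fun _ => 0) t nu) := by
  have h1 := LinearMap.finrank_range_add_finrank_ker
    ((hat m (t + 1)).domRestrict (PKT m S (Fin 0) (fun _ => 0) (t + 1) nu))
  rw [LinearMap.range_domRestrict] at h1
  rw [← h1]
  apply Nat.add_le_add_left
  rw [← hK m S (Fin 0) (fun _ => 0) t nu hS]
  have : FiniteDimensional ℂ (KerT m S (Fin 0) (fun _ => 0) t nu) :=
    Submodule.finiteDimensional_of_le (S₂ := PKT m S (Fin 0) (fun _ => 0) (t + 1) nu)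
      fun _ h => h.1
  let L : LinearMap.ker ((hat m (t + 1)).domRestrict
      (PKT m S (Fin 0) (fun _ => 0) (t + 1) nu)) →ₗ[ℂ] KerT m S (Fin 0) (fun _ => 0) t nu :=
    { toFun := fun f => ⟨f.1.1, f.1.2, fun v hv => by
        by_contra h
        push Not at h
        exact hv (hat_ker (sy_of_mem f.1.2) f.2 fun j => cl_ne.2 (h j))⟩
      map_add' := fun _ _ => rfl
      map_smul' := fun _ _ => rfl }
  apply LinearMap.finrank_le_finrank_of_injective (f := L)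
  intro f g h
  apply Subtype.ext
  apply Subtype.ext
  exact congrArg (fun x => x.1) h

lemma le_rank (hK : KerStmt) (hS : 1 ≤ S) (nu : Fin m → ℕ) :
    Module.finrank ℂ ((PKT m S (Fin 0) (fun _ => 0) (t + 1) nu).map (hat m (t + 1))) +
      Module.finrank ℂ (PKT m S (Fin 0) (fun _ => 0) t nu) ≤
        Module.finrank ℂ (PKT m S (Fin 0) (fun _ => 0) (t + 1) nu) := by
  have h1 := LinearMap.finrank_range_add_finrank_ker
    ((hat m (t + 1)).domRestrict (PKT m S (Fin 0) (fun _ => 0) (t + 1) nu))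
  rw [LinearMap.range_domRestrict] at h1
  rw [← h1]
  apply Nat.add_le_add_left
  rw [← hK m S (Fin 0) (fun _ => 0) t nu hS]
  let L : KerT m S (Fin 0) (fun _ => 0) t nu →ₗ[ℂ] LinearMap.ker ((hat m (t + 1)).domRestrict
      (PKT m S (Fin 0) (fun _ => 0) (t + 1) nu)) :=
    { toFun := fun f => ⟨⟨f.1, f.2.1⟩, by
        rw [LinearMap.mem_ker, LinearMap.domRestrict_apply]
        change hat m (t + 1) f.1 = 0
        rw [hat_eq]
        apply Finset.sum_eq_zero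
        intro v hv
        obtain ⟨j, hj⟩ := f.2.2 v (mem_support_iff.1 hv)
        have h2 : cl v j = 0 := by
          by_contra h
          exact cl_ne.1 h hj
        rw [hm_zero h2, smul_zero]⟩
      map_add' := fun _ _ => rfl
      map_smul' := fun _ _ => rfl }
  apply LinearMap.finrank_le_finrank_of_injective (f := L)
  intro f g h
  apply Subtype.ext
  exact congrArg (fun x => x.1.1) h

/-- **(HO1)** for `PKT`. -/
theorem step (hK : KerStmt) (hS : 1 ≤ S) {s ω : ℕ} (hG : Vac m S s ω) (t : ℕ)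
    (nu : Fin m → ℕ) (t' : ℕ) (ht' : t' = t + s) :
    Module.finrank ℂ (PKT m S (Fin 0) (fun _ => 0) (t + 1) nu) +
      Module.finrank ℂ (PKT m S (Fin 0) (fun _ => 0) t' (fun i => nu i + two m ω i)) ≤
    Module.finrank ℂ (PKT m S (Fin 0) (fun _ => 0) t nu) +
      Module.finrank ℂ (PKT m S (Fin 0) (fun _ => 0) (t' + 1) (fun i => nu i + two m ω i)) := by
  obtain ⟨G, hG, v, hv, hcol⟩ := hG
  have h1 := rank_le (t := t) hK hS nu
  have h2 := le_rank (t := t') hK hS (fun i => nu i + two m ω i)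
  have hhat : hat m s G ≠ 0 := by
    intro h
    exact hv (hat_ker (sy_of_mem hG) h fun j => cl_ne.2 (hcol j))
  let e : Fin (t + 1) ⊕ Fin s ≃ Fin (t' + 1) := finSumFinEquiv.trans (finCongr (by omega))
  let M : MvPolynomial (Fin m → ℕ) ℂ →ₗ[ℂ] MvPolynomial (Fin m → ℕ) ℂ :=
    (Fintype.card (Equiv.Perm (Fin (t' + 1))) : ℂ) • LinearMap.mulRight ℂ (hat m s G)
  have hM : Function.Injective M := by
    intro x y hxy
    have h3 : (Fintype.card (Equiv.Perm (Fin (t' + 1))) : ℂ) ≠ 0 := by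
      rw [Nat.cast_ne_zero]
      exact Fintype.card_ne_zero
    have h4 : (Fintype.card (Equiv.Perm (Fin (t' + 1))) : ℂ) • (x * hat m s G)
        = (Fintype.card (Equiv.Perm (Fin (t' + 1))) : ℂ) • (y * hat m s G) := hxy
    exact mul_right_cancel₀ hhat (smul_right_injective _ h3 h4)
  have h5 : ((PKT m S (Fin 0) (fun _ => 0) (t + 1) nu).map (hat m (t + 1))).map M ≤
      (PKT m S (Fin 0) (fun _ => 0) (t' + 1) (fun i => nu i + two m ω i)).map
        (hat m (t' + 1)) := by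
    rintro _ ⟨_, ⟨F, hF, rfl⟩, rfl⟩
    refine ⟨ext m e G F, ext_mem e hF hG, ?_⟩
    rw [hat_ext]
    rfl
  have h6 := Submodule.finrank_mono h5
  have h7 := (Submodule.equivMapOfInjective M hM
    ((PKT m S (Fin 0) (fun _ => 0) (t + 1) nu).map (hat m (t + 1)))).finrank_eq
  omega

end step

theorem vacStep (hK : KerStmt) (hT : TransT) : VacStep := by
  intro m S s ω t nu hS hG
  have h1 : ∀ (u : ℕ) (mu : Fin m → ℕ),
      NT m S mu 0 u = Module.finrank ℂ (PKT m S (Fin 0) (fun _ => 0) u mu) := by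
    intro u mu
    rw [hT m S (Fin 0) (fun _ => 0) u mu]
    congr 1
  rw [h1, h1, h1, h1]
  have h2 := step hK hS hG t nu (t + s) rfl
  have h3 : t + 1 + s = t + s + 1 := by omega
  rw [h3]
  exact h2

end Vale.Agent.P181.HO
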